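import Vale.Agent.P057PL.Gen
import Vale.Agent.P057SY.Defs

/-!
The pull back of kernel states along maps of systems.
-/

set_option linter.all false

open Matrix Finset MvPolynomial
open Vale.Agent.P267.H775 Vale.Agent.P057G Vale.Agent.P057PC Vale.Agent.P057TP Vale.Agent.P057SY
open Vale.Agent.P057DP (thK)

namespace Vale.Agent.P057PL

noncomputable section

variable {C W : Type} [Fintype W] [DecidableEq W] {T T' : Tow} {cl : W → C} {m : ℕ}

theorem none_fo (l : Lb T cl Unit m) : none ∈ fo l ↔ l.bs ≠ none := by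
  unfold fo; split_ifs with h <;> simp [h]

theorem some_fo (l : Lb T cl Unit m) (w : W) : some w ∈ fo l ↔ w ∈ l.fc := by
  unfold fo; split_ifs with h <;> simp

theorem fo_sub {k : Lb T' cl Unit m} {l : Lb T cl Unit m} :
    fo k ⊆ fo l ↔ k.fc ⊆ l.fc ∧ (k.bs = none ∨ k.bs = l.bs) := by
  refine ⟨fun h => ⟨fun w hw => (some_fo l w).1 (h ((some_fo k w).2 hw)), ?_⟩, fun h o ho => ?_⟩
  · refine or_iff_not_imp_left.2 fun e => ?_
    obtain ⟨a, ha⟩ := Option.ne_none_iff_exists'.1 e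
    obtain ⟨b, hb⟩ := Option.ne_none_iff_exists'.1 ((none_fo l).1 (h ((none_fo k).2 e)))
    rw [ha, hb]
  · cases o with
    | none => exact (none_fo l).2 fun e => (none_fo k).1 ho (h.2.elim id fun e' => e'.trans e)
    | some w => exact (some_fo l w).2 (h.1 ((some_fo k w).1 ho))

theorem mon_dvd (k : Lb T cl Unit m) {o : Option W} (ho : o ∈ fo k) :
    X o ∣ (mon k.fc (T.lv k.cd) : Lam ℝ W) := by
  cases o with
  | none =>
    obtain ⟨a, ha⟩ := Option.ne_none_iff_exists'.1 ((none_fo k).1 ho)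
    exact (dvd_pow_self _ (by have := k.card_lt ha; omega)).mul_left _
  | some w => exact (dvd_prod_of_mem (fun w => (X (some w) : Lam ℝ W)) ((some_fo k w).1 ho)).mul_right _

theorem mon_dvd2 (k : Lb T cl Unit m) (h : ¬k.Pure) :
    X none ^ 2 ∣ (mon k.fc (T.lv k.cd) : Lam ℝ W) := by
  obtain ⟨h1, h2⟩ := not_or.1 h
  obtain ⟨a, ha⟩ := Option.ne_none_iff_exists'.1 h1
  exact (pow_dvd_pow _ (by have := k.card_lt ha; omega)).mul_left _

theorem lift_dvd {d : Lam ℝ W} {x x' : Lb T cl Unit m → ℝ}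
    (h : ∀ k, x k = x' k ∨ d ∣ mon k.fc (T.lv k.cd)) (o : Option Unit) (a : T.ι) :
    d ∣ lift x o a - lift x' o a := by
  unfold lift
  rw [← sum_sub_distrib]
  refine dvd_sum fun k _ => ?_
  split_ifs with e
  · rcases h k with g | g
    · simp [g]
    · rw [← sub_mul, ← e.1]; exact g.mul_left _
  · simp

theorem lift_lin (o : Option Unit) (a : T.ι) :
    IsLinearMap ℝ fun x : Lb T cl Unit m → ℝ => lift x o a := by
  unfold lift
  refine ⟨fun x y => ?_, fun c x => ?_⟩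
  · rw [← sum_add_distrib]
    exact sum_congr rfl fun k _ => by split_ifs <;> simp [add_mul]
  · rw [smul_sum]
    exact sum_congr rfl fun k _ => by split_ifs <;> simp [smul_eq_C_mul, mul_assoc]

/-- the labels through the special vertex put to zero -/
def k0 {R : Type} [Zero R] (x : Lb T cl Unit m → R) (l : Lb T cl Unit m) : R :=
  if l.bs = none then x l else 0

/-- the squarefree coefficient of the family at a label -/
def cf (Ψ : Fam ℝ T.ι T'.ι W Unit) (x : Lb T' cl Unit m → ℝ) (l : Lb T cl Unit m) : ℝ :=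
  coeff (ex l.fc (T.lv l.cd)) (eval (lift x l.bs) (Ψ.fn l.bs l.cd))

open Classical in
/-- the map of pure labels, linear in the special vertex -/
def pm (Ψ : Fam ℝ T.ι T'.ι W Unit) (x : Lb T' cl Unit m → ℝ) (l : Lb T cl Unit m) : ℝ :=
  if l.bs = none then Ψ.sb x l else if l.Pure then Ψ.sb x l - Ψ.sb (k0 x) l else 0

variable {Ψ : Fam ℝ T.ι T'.ι W Unit}

theorem sb_loc {R : Type} [CommRing R] (Ψ : Fam R T.ι T'.ι W Unit) {x x' : Lb T' cl Unit m → R}
    {l : Lb T cl Unit m} (h : ∀ k, fo k ⊆ fo l → x k = x' k) : Ψ.sb x l = Ψ.sb x' l :=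
  sum_congr rfl fun B hB => by
    rw [funext fun a => P057GH.pt_congr (x := x) (x' := x') (o := l.bs) (A := B) (a := a)
      fun k _ h1 h2 => h k (fo_sub.2 ⟨h1.trans (mem_powerset.1 hB), h2⟩)]

theorem sb_wo {R : Type} [CommRing R] (Ψ : Fam R T.ι T'.ι W Unit) {x x' : Lb T' cl Unit m → R}
    (h : ∀ k, k.bs = none → x k = x' k) (l : Lb T cl Unit m) (hl : l.bs = none) :
    Ψ.sb x l = Ψ.sb x' l := sb_loc Ψ fun k hk => h k ((fo_sub.1 hk).2.elim id fun e => e.trans hl)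

theorem pm_loc (Ψ : Fam ℝ T.ι T'.ι W Unit) {x x' : Lb T' cl Unit m → ℝ} {l : Lb T cl Unit m}
    (h : ∀ k, fo k ⊆ fo l → x k = x' k) : pm Ψ x l = pm Ψ x' l := by
  unfold pm
  rw [sb_loc Ψ h, sb_loc Ψ (x := k0 x) (x' := k0 x') fun k hk => by simp only [k0, h k hk]]

theorem sb_cf (h : Ψ.Ok T.lv T'.lv) (x : Lb T' cl Unit m → ℝ) {l : Lb T cl Unit m}
    (hl : l.bs = none) : Ψ.sb x l = cf Ψ x l := by
  rw [Fam.sb, Fam.alt_eq, altL_ex (i := 0) _ (by simp), add_zero, l.card_eq hl, cf]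
  rw [add_zero, l.card_eq hl]
  exact JH.eval (h.hom _ _) (lift_hom x _)

open Classical in
theorem pm_cf (h : Ψ.Ok T.lv T'.lv) (x : Lb T' cl Unit m → ℝ) (l : Lb T cl Unit m) : pm Ψ x l =
    if l.bs = none then cf Ψ x l else if l.Pure then cf Ψ x l - cf Ψ (k0 x) l else 0 := by
  unfold pm
  split_ifs with h1 h2
  · exact sb_cf h x h1
  · have h3 := h2.resolve_left h1
    rw [Fam.sb, Fam.sb, Fam.alt_eq, Fam.alt_eq, ← altL_sub, altL_ex (i := 1), h3, coeff_sub, cf, cf]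
    · rw [h3]
      exact (JH.eval (h.hom _ _) (lift_hom x _)).sub (JH.eval (h.hom _ _) (lift_hom _ _))
    · rw [pow_one]
      exact dvd_eval (lift_dvd (fun k => (_root_.em (k.bs = none)).imp (fun e => (if_pos e).symm)
        fun e => mon_dvd k ((none_fo k).2 e)) _) _
  · rfl

theorem ex_le {l : Lb T cl Unit m} (hl : l.Pure) (o : Option W) : ex l.fc (T.lv l.cd) o ≤ 1 := by
  cases o with
  | none => rw [ex_none]; rcases hl with e | e; · have := l.card_eq e; omega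
            · omega
  | some w => rw [ex_some]; split_ifs <;> omega

theorem cf_pure (Ψ : Fam ℝ T.ι T'.ι W Unit) {x x' : Lb T' cl Unit m → ℝ}
    (hx : ∀ k, k.Pure → x k = x' k) {l : Lb T cl Unit m} (hl : l.Pure) : cf Ψ x l = cf Ψ x' l := by
  rw [cf, cf, ← sub_eq_zero, ← coeff_sub]
  exact coeff_of_dvd (dvd_eval (lift_dvd (fun k => (em k.Pure).imp (hx k) (mon_dvd2 k)) _) _)
    (Nat.lt_succ_of_le (ex_le hl none))

theorem pm_pure (h : Ψ.Ok T.lv T'.lv) {x x' : Lb T' cl Unit m → ℝ}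
    (hx : ∀ k, k.Pure → x k = x' k) : (pm Ψ x : Lb T cl Unit m → ℝ) = pm Ψ x' := funext fun l => by
  rw [pm_cf h, pm_cf h]
  split_ifs with h1 h2
  · exact cf_pure Ψ hx (Or.inl h1)
  · rw [cf_pure Ψ hx h2, cf_pure Ψ (x := k0 x) (x' := k0 x') (fun k hk => by
      simp only [k0, hx k hk]) h2]
  · rfl

theorem aff_cf (Ψ : Fam ℝ T.ι T'.ι W Unit) {κ : Type} [DecidableEq κ] {r : Finset κ}
    (j : (κ → ℝ) → Lb T' cl Unit m → ℝ) (hj : IsLinearMap ℝ j) {o : Option W}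
    (hr : ∀ x y k, o ∉ fo k → j (mix r x y) k = j y k) {l : Lb T cl Unit m} (hl : l.Pure) :
    Aff r fun x => cf Ψ (j x) l := fun y => by
  refine FO.coeff (FO.eval (Y := fun x => lift (j (mix r x y)) l.bs) (fun b => ?_) _) (ex_le hl o)
  have e : ∀ x, mix r x y = msk r x + mix r 0 y := fun x => funext fun i => by
    simp only [mix, msk, Pi.add_apply]; split_ifs <;> simp
  have e2 : ∀ x, lift (j (mix r x y)) l.bs b - lift (j (mix r 0 y)) l.bs b =
      lift (j (msk r x)) l.bs b := fun x => by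
    rw [e x, hj.map_add, (lift_lin _ _).map_add, add_sub_cancel_right]
  have l1 : IsLinearMap ℝ (msk r) := ⟨fun x x' => funext fun i => by
    simp only [msk, Pi.add_apply]; split_ifs <;> simp, fun c x => funext fun i => by
    simp only [msk, Pi.smul_apply]; split_ifs <;> simp⟩
  refine ⟨fun x => lift (j (msk r x)) l.bs b, ⟨fun x x' => by
    rw [l1.map_add, hj.map_add, (lift_lin _ _).map_add], fun c x => by
    rw [l1.map_smul, hj.map_smul, (lift_lin _ _).map_smul]⟩, fun x => ?_, fun x => by simp [e2]⟩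
  beta_reduce
  rw [← e2]
  exact lift_dvd (fun k => (em (o ∈ fo k)).symm.imp (fun g => by rw [hr x y k g, hr 0 y k g])
    (mon_dvd k)) _ _

theorem pm_zero (Ψ : Fam ℝ T.ι T'.ι W Unit) {x : Lb T' cl Unit m → ℝ}
    (hx : ∀ k, k.bs ≠ none → x k = 0) {l : Lb T cl Unit m} (hl : l.bs ≠ none) : pm Ψ x l = 0 := by
  have : k0 x = x := funext fun k => by unfold k0; split_ifs with e; exacts [rfl, (hx k e).symm]
  simp [pm, hl, this]

variable {E : Type} [Fintype E] [DecidableEq E]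

/-- the map of labels and extra coordinates -/
def pe (Ψ : Fam ℝ T.ι T'.ι W Unit) (x : Lb T' cl Unit m ⊕ E → ℝ) : Lb T cl Unit m ⊕ E → ℝ :=
  Sum.elim (pm Ψ (x ∘ Sum.inl)) (x ∘ Sum.inr)

/-- the extra coordinates pulled back -/
def px (Ψ : Fam ℝ T.ι T'.ι W Unit) (X : Xt (Option W) (Lb T cl Unit m) E) :
    Xt (Option W) (Lb T' cl Unit m) E := ⟨X.fc, X.tr, X.G, fun x => X.g (pe Ψ x)⟩

theorem la_pe (h : Ψ.Ok T.lv T'.lv) (X : Xt (Option W) (Lb T cl Unit m) E) :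
    LA (xt (sk T' cl m) (px Ψ X)) (xt (sk T cl m) X) (pe Ψ) := by
  refine ⟨fun i x x' k => ?_, fun v i hi => ?_⟩
  · cases i with
    | inl l => exact pm_loc Ψ fun j hj => k (Sum.inl j) hj
    | inr e => exact k (Sum.inr e) Subset.rfl
  cases i with
  | inr e =>
    intro y
    have : Sum.inr e ∈ (xt (sk T' cl m) (px Ψ X)).st v := (MS.mem_st _).2 hi
    simp only [pe, Sum.elim_inr, Function.comp, mix_pos _ _ this]
    exact ⟨fun _ _ => by simp, fun _ _ => by simp⟩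
  | inl l =>
    have e : ∀ (x y : Lb T' cl Unit m ⊕ E → ℝ) k, v ∉ fo k →
        mix ((xt (sk T' cl m) (px Ψ X)).st v) x y (Sum.inl k) = y (Sum.inl k) := fun x y k g =>
      mix_neg _ _ fun c => g ((MS.mem_st _).1 c)
    have a1 := fun hl : l.Pure => aff_cf Ψ (fun x : Lb T' cl Unit m ⊕ E → ℝ => x ∘ Sum.inl)
      ⟨fun _ _ => rfl, fun _ _ => rfl⟩ e hl
    have a2 := fun hl : l.Pure => aff_cf Ψ (r := (xt (sk T' cl m) (px Ψ X)).st v) (o := v) (fun x : Lb T' cl Unit m ⊕ E → ℝ => k0 (x ∘ Sum.inl))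
      ⟨fun _ _ => funext fun k => by simp only [k0, Pi.add_apply]; split_ifs <;> simp,
        fun _ _ => funext fun k => by simp only [k0, Pi.smul_apply]; split_ifs <;> simp⟩
      (fun x y k g => by simp only [k0, Function.comp, e x y k g]) hl
    simp only [pe, Sum.elim_inl, pm_cf h]
    split_ifs with h1 h2
    · exact a1 (Or.inl h1)
    · exact (a1 h2).sub (a2 h2)
    · exact fun _ => ⟨fun _ _ => by simp, fun _ _ => by simp⟩

variable {X : Xt (Option W) (Lb T cl Unit m) E}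

theorem ok_px (h : Ψ.Ok T.lv T'.lv) (hX : X.Ok (sk T cl m)) : (px Ψ X).Ok (sk T' cl m) :=
  ⟨hX.ne, hX.pd, hX.ort, fun e x x' h1 h2 => hX.loc e _ _
    (fun i hi => pm_loc Ψ fun k hk => h1 k (hk.trans hi)) h2,
    fun v e => (la_pe h X).aff_comp (hX.aff v e)⟩

theorem dg_pe (h : Ψ.Ok T.lv T'.lv) (hX : ∀ e, none ∉ X.fc e) {b : ℕ}
    {φ : (Lb T cl Unit m ⊕ E → ℝ) → ℝ} (hφ : Dg X b φ) : Dg (px Ψ X) b fun x => φ (pe Ψ x) := by
  refine ⟨fun x x' h1 h2 => hφ.on _ _ (fun l _ => congrFun (pm_pure h h1) l) h2,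
    fun v => (la_pe h X).aff_comp (hφ.aff v), ((la_pe h X).aff_comp (hφ.aff none)).lin fun y => ?_,
    fun F hF => (la_pe h X).alt_comp (hφ.deg F hF)⟩
  rw [← hφ.lin.zero (pe Ψ (mix ((xt (sk T' cl m) (px Ψ X)).st none) 0 y))]
  congr 1
  funext i
  by_cases k : i ∈ (xt (sk T cl m) X).st none
  · rw [mix_pos _ _ k]
    cases i with
    | inl l =>
      refine pm_zero Ψ (fun j hj => ?_) ((none_fo l).1 ((MS.mem_st _).1 k))
      have : Sum.inl j ∈ (xt (sk T' cl m) (px Ψ X)).st none := (MS.mem_st _).2 ((none_fo j).2 hj)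
      exact mix_pos _ _ this
    | inr e => exact absurd ((MS.mem_st _).1 k) (hX e)
  · rw [mix_neg _ _ k]

theorem g_pe (hX : X.Ok (sk T cl m)) (h0 : ∀ e, none ∉ X.fc e) (Ψ : Fam ℤ T.ι T'.ι W Unit)
    (z : Lb T' cl Unit m → ℤ) (n : E → ℤ) :
    (px (Ψ.cast ℝ) X).g (jn z n) = X.g (jn (Ψ.sub cl m z) n) := funext fun e =>
  hX.loc e _ _ (fun i hi => by
    have : i.bs = none := not_not.1 fun c => h0 e (hi ((none_fo i).2 c))
    simp only [pe, jn, Sum.elim_inl, Sum.elim_comp_inl, pm, this, if_true, Fam.toR_sub]) fun _ _ _ => rfl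

theorem lin_split {ι : Type} [DecidableEq ι] {r : Finset ι} {φ : (ι → ℝ) → ℝ} (h : Lin r φ)
    {p : ι → Prop} (hp : ∀ x x', (∀ i, p i → x i = x' i) → φ x = φ x') {x y w : ι → ℝ}
    (h1 : ∀ i, p i → i ∈ r → y i = x i - w i) (h2 : ∀ i, p i → i ∉ r → y i = x i ∧ w i = x i) :
    φ x = φ y + φ w := by
  have h3 := (h x).map_add (x - w) w
  rw [sub_add_cancel, mix_self] at h3
  rw [h3, hp (mix r (x - w) x) y fun i hi => ?_, hp (mix r w x) w fun i hi => ?_] <;>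
    by_cases k : i ∈ r
  · exact mix_pos _ _ k
  · rw [mix_neg _ _ k, (h2 i hi k).2]
  · rw [mix_pos _ _ k, h1 i hi k, Pi.sub_apply]
  · rw [mix_neg _ _ k, (h2 i hi k).1]

theorem toR_k0 (z : Lb T cl Unit m → ℤ) : toR (k0 z) = k0 (toR z) := funext fun k => by
  simp only [k0, toR_apply]; split_ifs <;> simp

theorem dg_split (h0 : ∀ e, none ∉ X.fc e) {b : ℕ} {φ : (Lb T cl Unit m ⊕ E → ℝ) → ℝ}
    (hφ : Dg X b φ) (Ψ : Fam ℤ T.ι T'.ι W Unit) (z : Lb T' cl Unit m → ℤ) (n : E → ℤ) :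
    φ (jn (Ψ.sub cl m z) n) = φ (pe (Ψ.cast ℝ) (jn z n)) + φ (jn (Ψ.sub cl m (k0 z)) n) := by
  have e1 : ∀ l : Lb T cl Unit m, Sum.inl l ∈ (xt (sk T cl m) X).st none ↔ l.bs ≠ none := fun l =>
    (MS.mem_st _).trans (none_fo l)
  refine lin_split hφ.lin (p := Sum.elim Lb.Pure fun _ => True)
    (fun x x' k => hφ.on x x' (fun l => k (Sum.inl l)) fun e => k (Sum.inr e) trivial) ?_ ?_
  · rintro (l | e) hl k
    · have hl : l.Pure := hl
      simp only [pe, jn, Sum.elim_inl, Sum.elim_comp_inl, pm, (e1 l).1 k, hl, if_true, if_false,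
        Fam.toR_sub, toR_k0]
    · exact absurd ((MS.mem_st _).1 k) (h0 e)
  · rintro (l | e) hl k
    · have k : l.bs = none := not_not.1 (mt (e1 l).2 k)
      simp only [pe, jn, Sum.elim_inl, Sum.elim_comp_inl, pm, k, if_true, Fam.toR_sub, toR_k0,
        true_and]
      exact sb_wo _ (fun j hj => if_pos hj) l k
    · simp only [pe, jn, Sum.elim_inr, Sum.elim_comp_inr, and_self]

theorem wo_sub {α : Type} {u : (Lb T cl Unit m → ℤ) → α} (h : WO u) (Ψ : Fam ℤ T.ι T'.ι W Unit) :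
    WO fun z => u (Ψ.sub cl m z) := fun z z' k => h _ _ (sb_wo Ψ k)

theorem ex0_sub {Z' : Sys T' W Unit} {Z : Sys T W Unit} {Ψ : Fam ℤ T.ι T'.ι W Unit} {R r : ℝ}
    (h : Sub cl m Z' Z Ψ R r) (f : ℤ → ℝ) (θ : ℝ) (z : Lb T' cl Unit m → ℤ) :
    Z'.Ex0 cl m f θ z = Z.Ex0 cl m f θ (Ψ.sub cl m z) := by
  unfold Sys.Ex0 Sys.PF
  rw [prod_congr rfl fun c hc => prod_congr rfl fun t _ => h.cel f z c hc t]

/-- kernel states are stable under maps of systems -/
theorem ks_pull {Z : Sys T W Unit} {f : ℤ → ℝ} {θ Y B κ σ : ℝ} {b τ : ℕ}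
    (h : KS Z cl m f θ b τ Y B κ σ) : ∃ H, Z.St cl m H B κ σ ∧
      ∀ (T' : Tow) (Z' : Sys T' W Unit) (Ψ : Fam ℤ T.ι T'.ι W Unit) (R r B' κ' σ' : ℝ),
        Sub cl m Z' Z Ψ R r → Z'.St cl m (fun z => H (Ψ.sub cl m z)) B' κ' σ' →
        KS Z' cl m f θ b τ Y B' κ' σ' := by
  obtain ⟨E, J, i1, i2, i3, i4, X, Φ, Gk, K, u, n, γ, h1, h2, h3, h4, h5, h6, h7, h8, h9, h10, h11,
    h12, h13⟩ := h
  refine ⟨_, h13, fun T' Z' Ψ R r B' κ' σ' hS hZ => ⟨E, J, i1, i2, i3, i4, px (Ψ.cast ℝ) X,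
    fun x => Φ (pe (Ψ.cast ℝ) x), Gk, K, fun z => u (Ψ.sub cl m z), fun z => n (Ψ.sub cl m z),
    fun z => γ (Ψ.sub cl m z) - Φ (jn (Ψ.sub cl m (k0 z)) (n (Ψ.sub cl m z))), ok_px hS.ok.cast h1,
    ⟨h2.tr, h2.card, h2.sep, h2.cx⟩, h3, h4, fun j => dg_pe hS.ok.cast h3 (h5 j), h6, h7,
    wo_sub h8 Ψ, wo_sub h9 Ψ, fun z z' k => ?_, fun z => h11 _, fun z hz => ?_, ?_⟩⟩
  · have : k0 z = k0 z' := funext fun l => by unfold k0; split_ifs with e; exacts [k l e, rfl]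
    simp only [this, wo_sub h9 Ψ z z' k, wo_sub h10 Ψ z z' k]
  · rw [g_pe h1 h3]; exact h12 _ hz
  · have e : ∀ z, Φ (pe (Ψ.cast ℝ) (jn z (n (Ψ.sub cl m z)))) - (γ (Ψ.sub cl m z) -
        Φ (jn (Ψ.sub cl m (k0 z)) (n (Ψ.sub cl m z)))) =
        Φ (jn (Ψ.sub cl m z) (n (Ψ.sub cl m z))) - γ (Ψ.sub cl m z) := fun z => funext fun j => by
      simp only [Pi.sub_apply, dg_split h3 (h5 j) Ψ z]; ring
    simpa only [e, ex0_sub hS] using hZ

end

end Vale.Agent.P057PL
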