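import Vale.Agent.P057G.Ms6
import Vale.Agent.P057EN.Top
import Vale.Agent.P057TP.Alg3

/-!
Local multi-affine maps between systems of faces; first order expansions of polynomial families.
-/

set_option linter.all false

open Matrix Finset MvPolynomial
open Vale.Agent.P267.H775 Vale.Agent.P057G Vale.Agent.P057PC Vale.Agent.P057TP

namespace Vale.Agent.P057PL

noncomputable section

section ms

variable {V ι κ : Type} [DecidableEq V] [Fintype ι] [DecidableEq ι] [Fintype κ] [DecidableEq κ]

/-- a local map of configurations, affine in every vertex -/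
structure LA (S' : MS V κ) (S : MS V ι) (M : (κ → ℝ) → ι → ℝ) : Prop where
  loc : ∀ i x x', (∀ k, S'.fc k ⊆ S.fc i → x k = x' k) → M x i = M x' i
  aff : ∀ v i, v ∈ S.fc i → Aff (S'.st v) fun x => M x i

variable {S' : MS V κ} {S : MS V ι} {M : (κ → ℝ) → ι → ℝ}

theorem LA.out (h : LA S' S M) {v : V} {i : ι} (hi : v ∉ S.fc i) (x y : κ → ℝ) :
    M (mix (S'.st v) x y) i = M y i :=
  h.loc i _ _ fun k hk => mix_neg _ _ fun e => hi (hk (S'.mem_st.1 e))

theorem LA.aff_comp (h : LA S' S M) {v : V} {φ : (ι → ℝ) → ℝ} (hφ : Aff (S.st v) φ) :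
    Aff (S'.st v) fun x => φ (M x) := fun y => by
  set r := S'.st v
  set y₀ := M (mix r 0 y)
  have e : ∀ x, φ (M (mix r x y)) - φ y₀ = φ (mix (S.st v) (msk (S.st v) (M (mix r x y) - y₀)) y₀) -
      φ (mix (S.st v) 0 y₀) := fun x => by
    have h1 := (hφ y₀).map_add (msk (S.st v) (M (mix r x y) - y₀)) y₀
    have h2 : mix (S.st v) (msk (S.st v) (M (mix r x y) - y₀) + y₀) y₀ = M (mix r x y) := by
      funext i
      by_cases k : i ∈ S.st v
      · rw [mix_pos _ _ k, Pi.add_apply, msk_pos _ k, Pi.sub_apply, sub_add_cancel]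
      · rw [mix_neg _ _ k, h.out (mt S.mem_st.2 k)]
        exact h.out (mt S.mem_st.2 k) 0 y
    rw [h2, mix_self] at h1
    linarith
  have l : IsLinearMap ℝ fun x => msk (S.st v) (M (mix r x y) - y₀) := by
    refine ⟨fun x x' => funext fun i => ?_, fun c x => funext fun i => ?_⟩ <;>
      by_cases k : i ∈ S.st v
    · simp only [Pi.add_apply, msk_pos _ k]
      exact (h.aff v i (S.mem_st.1 k) y).map_add x x'
    · simp only [Pi.add_apply, msk_neg _ k, add_zero]
    · simp only [Pi.smul_apply, msk_pos _ k]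
      exact (h.aff v i (S.mem_st.1 k) y).map_smul c x
    · simp only [Pi.smul_apply, msk_neg _ k, smul_zero]
  change IsLinearMap ℝ fun x => φ (M (mix r x y)) - φ y₀
  simp only [e]
  exact ⟨fun x x' => by rw [l.map_add]; exact (hφ y₀).map_add _ _,
    fun c x => by rw [l.map_smul]; exact (hφ y₀).map_smul _ _⟩

/-- the alternating sum along a local family of points -/
theorem alt_fam (F : Finset V) {φ : (ι → ℝ) → ℝ} (hφ : ∀ z, S.alt F φ z = 0)
    {y : Finset V → ι → ℝ} (hy : ∀ v U i, v ∉ S.fc i → y (insert v U) i = y U i) :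
    ∑ U ∈ F.powerset, (-1) ^ U.card * φ (y U) = 0 := by
  induction F using Finset.induction_on generalizing φ y with
  | empty => simpa [MS.alt_empty] using hφ (y ∅)
  | insert v F hv ih =>
    have h1 : ∀ z, S.alt F (fun z => φ z - φ (mix (S.st v) 0 z)) z = 0 := fun z => by
      rw [← hφ z, MS.alt_insert hv]
      simp only [MS.alt, MS.kz, mul_sub, sum_sub_distrib, mix_mix_comm (S.st v),
        mix_zero_zero]
    have h2 := ih h1 hy
    have h3 := ih h1 (y := fun U => y (insert v U)) fun w U i k => by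
      rw [insert_comm, hy w _ i k]
    have h4 : ∀ U, mix (S.st v) 0 (y (insert v U)) = mix (S.st v) 0 (y U) := fun U =>
      funext fun i => by
        by_cases k : i ∈ S.st v
        · rw [mix_pos _ _ k, mix_pos _ _ k]
        · rw [mix_neg _ _ k, mix_neg _ _ k, hy v U i (mt S.mem_st.2 k)]
    simp only [h4, mul_sub, sum_sub_distrib] at h2 h3
    rw [sum_powerset_insert hv, sum_congr rfl fun U hU => show (-1 : ℝ) ^ (insert v U).card *
      φ (y (insert v U)) = -((-1) ^ U.card * φ (y (insert v U))) by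
        rw [card_insert_of_notMem fun k => hv (mem_powerset.1 hU k)]; ring, sum_neg_distrib]
    linarith

theorem LA.alt_comp (h : LA S' S M) {F : Finset V} {φ : (ι → ℝ) → ℝ} (hφ : ∀ z, S.alt F φ z = 0)
    (x : κ → ℝ) : S'.alt F (fun x => φ (M x)) x = 0 :=
  alt_fam F hφ (y := fun U => M (S'.kz U x)) fun v U i k => by
    refine h.loc i _ _ fun j hj => ?_
    have : j ∉ S'.st v := fun e => k (hj (S'.mem_st.1 e))
    simp only [MS.kz, MS.sts_insert, mix, mem_union, this, false_or]

end ms

section ord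

variable {σ E κ : Type} [AddCommGroup E] [Module ℝ E] {o : σ} {F G : E → MvPolynomial σ ℝ}

/-- affine to first order in the variable `o` -/
def FO (o : σ) (F : E → MvPolynomial σ ℝ) : Prop :=
  ∃ L : E → MvPolynomial σ ℝ, IsLinearMap ℝ L ∧ (∀ x, X o ∣ L x) ∧ ∀ x, X o ^ 2 ∣ F x - F 0 - L x

theorem FO.const (o : σ) (y : MvPolynomial σ ℝ) : FO o fun _ : E => y :=
  ⟨0, ⟨fun _ _ => by simp, fun _ _ => by simp⟩, fun _ => dvd_zero _, fun _ => by simp⟩

theorem FO.add (hF : FO o F) (hG : FO o G) : FO o fun x => F x + G x := by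
  obtain ⟨L, h1, h2, h3⟩ := hF
  obtain ⟨K, k1, k2, k3⟩ := hG
  refine ⟨fun x => L x + K x, ⟨fun x y => by rw [h1.map_add, k1.map_add]; ring,
    fun c x => by rw [h1.map_smul, k1.map_smul, smul_add]⟩, fun x => (h2 x).add (k2 x), fun x => ?_⟩
  convert (h3 x).add (k3 x) using 1; ring

theorem FO.mul (hF : FO o F) (hG : FO o G) : FO o fun x => F x * G x := by
  obtain ⟨L, h1, h2, h3⟩ := hF
  obtain ⟨K, k1, k2, k3⟩ := hG
  refine ⟨fun x => L x * G 0 + F 0 * K x, ⟨fun x y => by rw [h1.map_add, k1.map_add]; ring,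
    fun c x => by rw [h1.map_smul, k1.map_smul, smul_add, smul_mul_assoc, mul_smul_comm]⟩,
    fun x => ((h2 x).mul_right _).add ((k2 x).mul_left _), fun x => ?_⟩
  convert (((h3 x).mul_right (G x)).add ((k3 x).mul_left (F 0 + L x))).add
    (sq (X o : MvPolynomial σ ℝ) ▸ mul_dvd_mul (h2 x) (k2 x)) using 1
  ring

theorem FO.eval {Y : E → κ → MvPolynomial σ ℝ} (hY : ∀ b, FO o fun x => Y x b)
    (p : MvPolynomial κ (MvPolynomial σ ℝ)) : FO o fun x => eval (Y x) p := by
  induction p using MvPolynomial.induction_on with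
  | C a => simpa only [eval_C] using FO.const o a
  | add p q hp hq => simpa only [map_add] using hp.add hq
  | mul_X p b hp => simpa only [map_mul, eval_X] using hp.mul (hY b)

theorem coeff_of_dvd {n : ℕ} {y : MvPolynomial σ ℝ} (h : X o ^ n ∣ y) {μ : σ →₀ ℕ} (hμ : μ o < n) :
    coeff μ y = 0 := by
  classical
  obtain ⟨a, rfl⟩ := h
  rw [X_pow_eq_monomial, coeff_monomial_mul', if_neg fun k => by
    have := k o; simp only [Finsupp.single_eq_same] at this; omega]

theorem FO.coeff (h : FO o F) {μ : σ →₀ ℕ} (hμ : μ o ≤ 1) :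
    IsLinearMap ℝ fun x => coeff μ (F x) - coeff μ (F 0) := by
  obtain ⟨L, h1, -, h3⟩ := h
  have e : ∀ x, MvPolynomial.coeff μ (F x) - MvPolynomial.coeff μ (F 0) = MvPolynomial.coeff μ (L x) :=
    fun x => by
      have := coeff_of_dvd (h3 x) (Nat.lt_succ_of_le hμ)
      rwa [coeff_sub, coeff_sub, sub_eq_zero] at this
  simp only [e]
  exact ⟨fun x y => by rw [h1.map_add, coeff_add], fun c x => by rw [h1.map_smul, coeff_smul]⟩

theorem dvd_eval {A : Type} [CommRing A] {d : A} {Y Y' : κ → A} (h : ∀ b, d ∣ Y b - Y' b)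
    (p : MvPolynomial κ A) : d ∣ eval Y p - eval Y' p := by
  induction p using MvPolynomial.induction_on with
  | C a => simp
  | add p q hp hq => convert hp.add hq using 1; simp only [map_add]; ring
  | mul_X p b hp =>
    convert (hp.mul_right (Y b)).add ((h b).mul_left (eval Y' p)) using 1
    simp only [map_mul, eval_X]; ring

end ord

variable {W : Type} [DecidableEq W]

/-- the exponent of `mon` -/
def ex (A : Finset W) (d : ℕ) : Option W →₀ ℕ :=
  ∑ w ∈ A, Finsupp.single (some w) 1 + Finsupp.single none (d - A.card)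

theorem ex_none (A : Finset W) (d : ℕ) : ex A d none = d - A.card := by
  simp [ex, Finsupp.finsetSum_apply]

theorem ex_some (A : Finset W) (d : ℕ) (w : W) : ex A d (some w) = if w ∈ A then 1 else 0 := by
  simp [ex, Finsupp.finsetSum_apply, Finsupp.single_apply]

theorem altL_ex {A : Finset W} {x : Lam ℝ W} {i : ℕ} (hx : IsHomogeneous x (A.card + i))
    (hd : X none ^ i ∣ x) : altL A x = coeff (ex A (A.card + i)) x := by
  classical
  have h1 : spW (ex A (A.card + i)) = A := by
    ext w; rw [mem_spW, ex_some]; simp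
  rw [altL_eq_sum, sum_eq_single (ex A (A.card + i)), if_pos h1]
  · intro μ hμ hne
    refine if_neg fun e => hne ?_
    have h2 := deg_of_hom hx (mem_support_iff.1 hμ)
    have h6 : i ≤ μ none := not_lt.1 fun k => mem_support_iff.1 hμ (coeff_of_dvd hd k)
    rw [degree_opt, e] at h2
    have h3 : ∀ w ∈ A, 1 ≤ μ (some w) := fun w hw =>
      Nat.one_le_iff_ne_zero.2 (mem_spW.1 (e ▸ hw))
    have h4 := sum_le_sum h3
    rw [← card_eq_sum_ones] at h4
    have h5 := (sum_eq_sum_iff_of_le h3).1 (by rw [← card_eq_sum_ones]; omega)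
    ext o
    cases o with
    | none => rw [ex_none]; omega
    | some w =>
      rw [ex_some]
      split_ifs with k
      · exact (h5 w k).symm
      · by_contra k2
        exact k (e ▸ mem_spW.2 k2)
  · intro h; rw [if_pos h1]; exact notMem_support_iff.1 h

end

end Vale.Agent.P057PL
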